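import Mathlib

/-!
Elementary bounds on differences of `tanh`. Used for P150.
-/

namespace Vale.Agent.P150.Lower

open Real

theorem tanh_sub_tanh (u v : ℝ) : tanh u - tanh v = tanh (u - v) * (1 - tanh u * tanh v) := by
  rw [tanh_eq_sinh_div_cosh, tanh_eq_sinh_div_cosh, tanh_eq_sinh_div_cosh, sinh_sub, cosh_sub]
  have hu := (cosh_pos u).ne'
  have hv := (cosh_pos v).ne'
  have h : cosh u * cosh v - sinh u * sinh v ≠ 0 := by
    rw [← cosh_sub]; exact (cosh_pos _).ne'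
  field_simp

theorem tanh_near {u : ℝ} (hu : |u| ≤ 1 / 2) : |tanh u - u| ≤ 8 * u ^ 2 := by
  have h2 : |2 * u| ≤ 1 := by rw [abs_mul, abs_two]; linarith
  have hE := abs_exp_sub_one_sub_id_le h2
  have e : tanh u * (exp (2 * u) + 1) = exp (2 * u) - 1 := by
    rw [tanh_eq, show (2 : ℝ) * u = u + u by ring, exp_add]
    have := exp_pos u
    have := exp_pos (-u)
    have hm : exp u * exp (-u) = 1 := by rw [← exp_add, add_neg_cancel, exp_zero]
    field_simp
    linear_combination -2 * exp u * hm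
  have e2 : (tanh u - u) * (exp (2 * u) + 1)
      = (exp (2 * u) - 1 - 2 * u) - u * (exp (2 * u) - 1 - 2 * u) - 2 * u ^ 2 := by
    linear_combination e
  have hb : |(tanh u - u) * (exp (2 * u) + 1)| ≤ 8 * u ^ 2 := by
    rw [e2]
    have h3 : |u * (exp (2 * u) - 1 - 2 * u)| ≤ 1 / 2 * (2 * u) ^ 2 := by
      rw [abs_mul]; exact mul_le_mul hu hE (abs_nonneg _) (by norm_num)
    rw [abs_le] at hE h3 ⊢
    constructor <;> linarith [sq_nonneg u]
  rw [abs_mul] at hb
  refine le_trans (le_mul_of_one_le_right (abs_nonneg _) ?_) hb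
  rw [abs_of_pos (add_pos (exp_pos _) one_pos)]
  linarith [exp_pos (2 * u)]

/-- The difference of `tanh` at two points `2 k` apart, against the linearisation at either point. -/
theorem tanh_diff {k w P Q T : ℝ} (hk : |k| ≤ 1 / 20) (hP : P = tanh (w + k)) (hQ : Q = tanh (w - k))
    (hT : T = P ∨ T = Q) :
    ((P - Q) / 2) ^ 2 ≤ 100 * k ^ 2 * (1 - T ^ 2) ∧
      |(P - Q) / 2 - k * (1 - T ^ 2)| ≤ 52 * k ^ 2 := by
  set θ := tanh (2 * k) with hθ
  set S := 1 - P * Q with hS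
  have hd : P - Q = θ * S := by
    rw [hθ, hS, hP, hQ, tanh_sub_tanh]; ring_nf
  have hk2 : |2 * k| ≤ 1 / 2 := by rw [abs_mul, abs_two]; linarith
  have hnear := tanh_near hk2
  have hksq : k ^ 2 ≤ |k| / 20 := by
    have := mul_le_mul_of_nonneg_left hk (abs_nonneg k)
    rw [← sq_abs, pow_two]; linarith
  have hθk : |θ| ≤ 10 * |k| := by
    have h1 : |θ| ≤ |θ - 2 * k| + |2 * k| := by
      simpa using abs_add_le (θ - 2 * k) (2 * k)
    rw [abs_mul, abs_two] at h1
    linarith [hθ, abs_nonneg k]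
  have hP1 : |P| ≤ 1 := hP ▸ (abs_tanh_lt_one _).le
  have hQ1 : |Q| ≤ 1 := hQ ▸ (abs_tanh_lt_one _).le
  have hPQ : |P * Q| ≤ 1 := by rw [abs_mul]; exact mul_le_one₀ hP1 (abs_nonneg _) hQ1
  have hS0 : 0 ≤ S := by rw [hS]; linarith [(abs_le.1 hPQ).2]
  have hS2 : S ≤ 2 := by rw [hS]; linarith [(abs_le.1 hPQ).1]
  have hdiff : |1 - T ^ 2 - S| ≤ |θ| * S := by
    have hT1 : |T| ≤ 1 := by rcases hT with h | h <;> rw [h] <;> assumption
    have e : |1 - T ^ 2 - S| = |T| * |θ * S| := by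
      rw [← hd, ← abs_mul]
      rcases hT with h | h
      · rw [show 1 - T ^ 2 - S = -(T * (P - Q)) by rw [hS, h]; ring, abs_neg]
      · rw [show 1 - T ^ 2 - S = T * (P - Q) by rw [hS, h]; ring]
    rw [e, abs_mul θ S, abs_of_nonneg hS0]
    exact mul_le_of_le_one_left (mul_nonneg (abs_nonneg _) hS0) hT1
  have hθ2 : |θ| ≤ 1 / 2 := by linarith
  have hSle : S ≤ 2 * (1 - T ^ 2) := by
    have := (abs_le.1 hdiff).1
    linarith [mul_le_mul_of_nonneg_right hθ2 hS0]
  constructor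
  · rw [hd, show (θ * S / 2) ^ 2 = θ ^ 2 * (S * S) / 4 by ring, ← sq_abs θ]
    have h1 : |θ| ^ 2 ≤ 100 * k ^ 2 := by
      rw [show 100 * k ^ 2 = (10 * |k|) ^ 2 by rw [mul_pow, sq_abs]; norm_num]
      gcongr
    have h2 : S * S ≤ 4 * (1 - T ^ 2) := by nlinarith
    calc |θ| ^ 2 * (S * S) / 4 ≤ 100 * k ^ 2 * (4 * (1 - T ^ 2)) / 4 := by
          have := mul_le_mul h1 h2 (mul_self_nonneg S) (by positivity)
          linarith
      _ = _ := by ring
  · have e : (P - Q) / 2 - k * (1 - T ^ 2) = (θ - 2 * k) / 2 * S + k * (S - (1 - T ^ 2)) := by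
      rw [hd]; ring
    rw [e]
    refine (abs_add_le _ _).trans ?_
    have h1 : |(θ - 2 * k) / 2 * S| ≤ 32 * k ^ 2 := by
      rw [abs_mul, abs_div, abs_two, abs_of_nonneg hS0]
      have := mul_le_mul (div_le_div_of_nonneg_right hnear zero_le_two) hS2 hS0
        (by positivity : (0 : ℝ) ≤ 8 * (2 * k) ^ 2 / 2)
      rw [hθ]
      linarith
    have h2 : |k * (S - (1 - T ^ 2))| ≤ 20 * k ^ 2 := by
      rw [abs_mul, abs_sub_comm, show 20 * k ^ 2 = |k| * (10 * |k| * 2) by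
        rw [← sq_abs k]; ring]
      exact mul_le_mul_of_nonneg_left
        (hdiff.trans (mul_le_mul hθk hS2 hS0 (by positivity))) (abs_nonneg _)
    linarith

end Vale.Agent.P150.Lower
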