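import Mathlib
import Vale.Agent.P150.Crit.Glue
import Vale.Agent.P150.Lower.Tanh

/-!
The squared gradient grows at most exponentially along the heat-bath generator, pointwise,
when the coupling matrix has bounded quadratic form and bounded row sums of squares.
Used for P150.
-/

open Finset Real

namespace Vale.Agent.P150.Lower

open Crit Ent

variable {n : ℕ}

/-- Squared gradient. -/
noncomputable def gradSq (f : Conf n → ℝ) (x : Conf n) : ℝ := ∑ j, grad f x j ^ 2

theorem gradSq_nonneg (f : Conf n → ℝ) (x : Conf n) : 0 ≤ gradSq f x :=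
  sum_nonneg fun _ _ => sq_nonneg _

/-- The generator for a coupling matrix. -/
noncomputable def gen (K : Fin n → Fin n → ℝ) (f : Conf n → ℝ) (x : Conf n) : ℝ :=
  -∑ i, resid K 0 f x i

/-- The second difference. -/
noncomputable def hess (f : Conf n → ℝ) (x : Conf n) (i j : Fin n) : ℝ :=
  grad (fun y => grad f y i) x j

/-- The difference of the conditional means. -/
noncomputable def dT (K : Fin n → Fin n → ℝ) (x : Conf n) (i j : Fin n) : ℝ :=
  grad (fun y => tanh (fld K 0 y i)) x j

theorem hess_symm (f : Conf n → ℝ) (x : Conf n) (i j : Fin n) : hess f x i j = hess f x j i := by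
  rcases eq_or_ne i j with rfl | h
  · rfl
  · simp only [hess, grad, Function.update_comm h]
    ring

theorem hess_self (f : Conf n → ℝ) (x : Conf n) (i : Fin n) : hess f x i i = 0 := by
  simp [hess, grad]

theorem grad_sq (f : Conf n → ℝ) (x : Conf n) (i : Fin n) :
    grad (fun y => f y ^ 2) x i = grad f x i * (2 * f x - 2 * spin (x i) * grad f x i) := by
  have e : Function.update x i (x i) = x := Function.update_eq_self i x
  cases h : x i <;> rw [h] at e <;> simp only [grad, spin, if_true, Bool.false_eq_true, if_false]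
  all_goals
    conv_rhs => rw [show f x = f (Function.update x i _) from congrArg f e.symm]
    ring

theorem gen_sq (K : Fin n → Fin n → ℝ) (f : Conf n → ℝ) (x : Conf n) :
    gen K (fun y => f y ^ 2) x - 2 * f x * gen K f x
      = ∑ i, 2 * grad f x i ^ 2 * (1 - spin (x i) * tanh (fld K 0 x i)) := by
  simp only [gen, resid, grad_sq, mul_neg, sub_neg_eq_add, mul_sum]
  rw [← sum_neg_distrib, ← sum_add_distrib]
  refine sum_congr rfl fun i _ => ?_
  have hs : spin (x i) * spin (x i) = 1 := spin_sq _
  linear_combination (2 * grad f x i ^ 2) * hs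

theorem grad_gen (K : Fin n → Fin n → ℝ) (hd : ∀ i, K i i = 0) (f : Conf n → ℝ) (x : Conf n)
    (j : Fin n) :
    grad (gen K f) x j = -grad f x j + ∑ i, (-(hess f x i j * (spin (x i) - tanh (fld K 0 x i)))
      + grad f x i * dT K x i j - 2 * spin (x j) * hess f x i j * dT K x i j) := by
  have e : grad (gen K f) x j = ∑ i, -grad (fun y => resid K 0 f y i) x j := by
    simp only [grad, gen, sub_eq_add_neg, ← sum_neg_distrib, ← sum_add_distrib, neg_neg, sum_div]
    exact sum_congr rfl fun i _ => by ring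
  have hj : ∀ i, -grad (fun y => resid K 0 f y i) x j
      = (if i = j then -grad f x j else 0)
        + (-(hess f x i j * (spin (x i) - tanh (fld K 0 x i)))
          + grad f x i * dT K x i j - 2 * spin (x j) * hess f x i j * dT K x i j) := by
    intro i
    rcases eq_or_ne i j with rfl | hij
    · simp [hess_self, dT, grad, resid, fld_update K 0 hd, spin]
      ring
    · rw [if_neg hij, zero_add]
      have eu : Function.update x j (x j) = x := Function.update_eq_self j x
      simp only [resid, hess, dT, grad, Function.update_of_ne hij]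
      cases h : x j <;> rw [h] at eu <;> simp only [spin, if_true, Bool.false_eq_true, if_false]
      all_goals
        conv_rhs =>
          rw [show tanh (fld K 0 x i) = tanh (fld K 0 (Function.update x j _) i) by rw [eu],
            show f (Function.update x i true) = f (Function.update (Function.update x j _) i true) by
              rw [eu],
            show f (Function.update x i false) = f (Function.update (Function.update x j _) i false) by
              rw [eu]]
        ring
  rw [e, sum_congr rfl fun i _ => hj i, sum_add_distrib]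
  simp

theorem dT_bounds (K : Fin n → Fin n → ℝ) {x : Conf n} {i j : Fin n}
    (hk : |K i j| ≤ 1 / 20) :
    dT K x i j ^ 2 ≤ 200 * K i j ^ 2 * (1 - spin (x i) * tanh (fld K 0 x i)) ∧
      |dT K x i j - K i j * (1 - tanh (fld K 0 x i) ^ 2)| ≤ 52 * K i j ^ 2 := by
  set T := tanh (fld K 0 x i) with hT
  set w := fld K 0 x i - K i j * spin (x j) with hw
  have hu : ∀ b, fld K 0 (Function.update x j b) i = w + K i j * spin b := by
    intro b
    rw [hw, fld, fld, ← add_sum_erase univ _ (mem_univ j), ← add_sum_erase univ _ (mem_univ j),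
      Function.update_self,
      sum_congr rfl fun l hl => by rw [Function.update_of_ne (ne_of_mem_erase hl)]]
    ring
  have hd' : dT K x i j = (tanh (w + K i j) - tanh (w - K i j)) / 2 := by
    simp [dT, grad, hu, spin, sub_eq_add_neg]
  have hor : T = tanh (w + K i j) ∨ T = tanh (w - K i j) := by
    cases h : x j
    · right; rw [hT, hw, h]; simp [spin]
    · left; rw [hT, hw, h]; simp [spin]
  obtain ⟨h1, h2⟩ := tanh_diff hk rfl rfl hor
  rw [← hd'] at h1 h2
  refine ⟨h1.trans ?_, h2⟩
  have hT1 := abs_lt.1 (hT ▸ abs_tanh_lt_one (fld K 0 x i))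
  have hw0 : 1 - T ^ 2 ≤ 2 * (1 - spin (x i) * T) := by
    cases x i <;> simp [spin] <;> nlinarith
  linarith [mul_le_mul_of_nonneg_left hw0 (show 0 ≤ 100 * K i j ^ 2 by positivity)]

theorem bilin_le (K : Fin n → Fin n → ℝ) (hK : ∀ i j, K i j = K j i) {l : ℝ}
    (hq : ∀ v, |qform K v| ≤ l * ∑ i, v i ^ 2) (u v : Fin n → ℝ) :
    |∑ j, ∑ i, u j * (K i j * v i)| ≤ l / 2 * (∑ i, u i ^ 2 + ∑ i, v i ^ 2) := by
  set B := ∑ j, ∑ i, u j * (K i j * v i) with hB
  have hB' : ∑ i, ∑ j, u j * (K i j * v i) = B := sum_comm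
  have hB2 : ∑ j, ∑ i, K j i * u j * v i = B :=
    sum_congr rfl fun j _ => sum_congr rfl fun i _ => by rw [hK j i]; ring
  have e : qform K (u + v) - qform K (u - v) = 4 * B := by
    have : qform K (u + v) - qform K (u - v)
        = 2 * (∑ i, ∑ j, u j * (K i j * v i)) + 2 * ∑ j, ∑ i, K j i * u j * v i := by
      simp only [qform, mul_sum, ← sum_sub_distrib, ← sum_add_distrib, Pi.add_apply, Pi.sub_apply]
      exact sum_congr rfl fun a _ => sum_congr rfl fun b _ => by ring
    rw [this, hB', hB2]; ring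
  have h1 := abs_le.1 (hq (u + v))
  have h2 := abs_le.1 (hq (u - v))
  have e2 : ∑ i, (u + v) i ^ 2 + ∑ i, (u - v) i ^ 2 = 2 * (∑ i, u i ^ 2 + ∑ i, v i ^ 2) := by
    simp only [mul_add, mul_sum, ← sum_add_distrib, Pi.add_apply, Pi.sub_apply]
    exact sum_congr rfl fun i _ => by ring
  have e3 := congrArg (fun z => l * z) e2
  rw [abs_le]
  constructor <;> linarith

/-- The gradient growth inequality. -/
theorem gradSq_flow (K : Fin n → Fin n → ℝ) (hK : ∀ i j, K i j = K j i) (hd : ∀ i, K i i = 0)
    {l R : ℝ} (hl : 0 ≤ l) (hq : ∀ v, |qform K v| ≤ l * ∑ i, v i ^ 2)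
    (hR : ∀ i, ∑ j, K i j ^ 2 ≤ R) (hk : ∀ i j, |K i j| ≤ 1 / 20) (f : Conf n → ℝ) (x : Conf n) :
    2 * ∑ j, grad f x j * grad (gen K f) x j
      ≤ gen K (gradSq f) x + (2 * l + 504 * R) * gradSq f x := by
  set a := fun j => grad f x j with ha
  set T := fun i => tanh (fld K 0 x i) with hT
  set w := fun i => 1 - spin (x i) * T i with hw
  set b := fun i => a i * (1 - T i ^ 2) with hb
  have hL : gen K (gradSq f) x = ∑ j, gen K (fun y => grad f y j ^ 2) x := by
    simp only [gen, resid, gradSq, grad, sum_neg_distrib, ← sum_sub_distrib, sum_div, sum_mul]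
    rw [sum_comm]
  have hA : ∀ j, gen K (fun y => grad f y j ^ 2) x - 2 * (a j * grad (gen K f) x j)
      = 2 * a j ^ 2 + ∑ i, (2 * hess f x i j ^ 2 * w i
          + 4 * spin (x j) * a j * hess f x i j * dT K x i j - 2 * a j * a i * dT K x i j) := by
    intro j
    have h1 := gen_sq K (fun y => grad f y j) x
    have h2 : gen K (fun y => grad f y j) x
        = -∑ i, hess f x i j * (spin (x i) - T i) := by
      simp only [gen, resid, hess_symm f x _ j]
      rfl
    have e1 : ∑ i, 2 * grad (fun y => grad f y j) x i ^ 2 * (1 - spin (x i) * tanh (fld K 0 x i))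
        = ∑ i, 2 * hess f x i j ^ 2 * w i := by
      simp only [hess_symm f x _ j]; rfl
    rw [e1, h2] at h1
    rw [sub_eq_iff_eq_add] at h1
    rw [grad_gen K hd, h1]
    simp only [mul_add, mul_neg, mul_sum, ← sum_neg_distrib]
    rw [sub_add_eq_sub_sub, sub_neg_eq_add, ← sum_add_distrib, add_sub_right_comm,
      ← sum_sub_distrib, add_comm]
    refine congrArg₂ (· + ·) (by ring) (sum_congr rfl fun i _ => ?_)
    simp only [ha, hT, hw]
    ring
  have hpt : ∀ j i, -(400 * (K i j ^ 2 * a j ^ 2)) - 2 * (a j * (K i j * b i))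
        - 104 * (|a j| * |a i| * K i j ^ 2)
      ≤ 2 * hess f x i j ^ 2 * w i
          + 4 * spin (x j) * a j * hess f x i j * dT K x i j - 2 * a j * a i * dT K x i j := by
    intro j i
    obtain ⟨h1, h2⟩ := dT_bounds K (x := x) (hk i j)
    have hw0 : 0 < w i := by
      have h := abs_lt.1 (abs_tanh_lt_one (fld K 0 x i))
      simp only [hw, hT]
      cases x i <;> simp [spin] <;> linarith [h.1, h.2]
    have hs : spin (x j) ^ 2 = 1 := by rw [pow_two]; exact spin_sq _
    have c1 : -(400 * (K i j ^ 2 * a j ^ 2))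
        ≤ 2 * hess f x i j ^ 2 * w i + 4 * spin (x j) * a j * hess f x i j * dT K x i j := by
      have e : (2 * hess f x i j ^ 2 * w i + 4 * spin (x j) * a j * hess f x i j * dT K x i j
            + 400 * (K i j ^ 2 * a j ^ 2)) * w i
          = 2 * (hess f x i j * w i + spin (x j) * a j * dT K x i j) ^ 2
            + 2 * a j ^ 2 * (200 * K i j ^ 2 * w i - dT K x i j ^ 2) := by
        linear_combination (-2 * a j ^ 2 * dT K x i j ^ 2) * hs
      have : 0 ≤ (2 * hess f x i j ^ 2 * w i + 4 * spin (x j) * a j * hess f x i j * dT K x i j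
            + 400 * (K i j ^ 2 * a j ^ 2)) * w i := by
        rw [e]; have := sub_nonneg.2 h1; positivity
      linarith [nonneg_of_mul_nonneg_left this hw0]
    have c2 : a j * a i * dT K x i j ≤ a j * (K i j * b i) + 52 * (|a j| * |a i| * K i j ^ 2) := by
      have : a j * a i * (dT K x i j - K i j * (1 - T i ^ 2))
          ≤ |a j| * |a i| * (52 * K i j ^ 2) := by
        refine (le_abs_self _).trans ?_
        rw [abs_mul, abs_mul]
        exact mul_le_mul_of_nonneg_left h2 (by positivity)
      simp only [hb]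
      linarith
    linarith
  have hrow : ∑ j, ∑ i, K i j ^ 2 * a j ^ 2 ≤ R * ∑ j, a j ^ 2 := by
    rw [mul_sum]
    refine sum_le_sum fun j _ => ?_
    rw [← sum_mul]
    exact mul_le_mul_of_nonneg_right
      ((sum_congr rfl fun i _ => by rw [hK i j]).trans_le (hR j)) (sq_nonneg _)
  have hrow' : ∑ j, ∑ i, K i j ^ 2 * a i ^ 2 ≤ R * ∑ j, a j ^ 2 := by
    rw [sum_comm, mul_sum]
    refine sum_le_sum fun i _ => ?_
    rw [← sum_mul]
    exact mul_le_mul_of_nonneg_right (hR i) (sq_nonneg _)
  have hmix : ∑ j, ∑ i, |a j| * |a i| * K i j ^ 2 ≤ R * ∑ j, a j ^ 2 := by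
    have : ∑ j, ∑ i, |a j| * |a i| * K i j ^ 2
        ≤ ∑ j, ∑ i, (K i j ^ 2 * a j ^ 2 + K i j ^ 2 * a i ^ 2) / 2 :=
      sum_le_sum fun j _ => sum_le_sum fun i _ => by
        nlinarith [mul_nonneg (sq_nonneg (K i j)) (sq_nonneg (|a j| - |a i|)), sq_abs (a j),
          sq_abs (a i)]
    simp only [← sum_div, sum_add_distrib] at this
    linarith
  have hb2 : ∑ i, b i ^ 2 ≤ ∑ i, a i ^ 2 := sum_le_sum fun i _ => by
    have h := abs_lt.1 (abs_tanh_lt_one (fld K 0 x i))
    simp only [hb, hT, mul_pow]
    exact mul_le_of_le_one_right (sq_nonneg _) (pow_le_one₀ (by nlinarith) (by nlinarith [sq_nonneg (tanh (fld K 0 x i))]))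
  have hbil := (abs_le.1 (bilin_le K hK hq a b)).2
  set Y := fun j i => 2 * hess f x i j ^ 2 * w i
      + 4 * spin (x j) * a j * hess f x i j * dT K x i j - 2 * a j * a i * dT K x i j with hY
  have hsum : -(400 * ∑ j, ∑ i, K i j ^ 2 * a j ^ 2) - 2 * (∑ j, ∑ i, a j * (K i j * b i))
      - 104 * (∑ j, ∑ i, |a j| * |a i| * K i j ^ 2) ≤ ∑ j, ∑ i, Y j i := by
    simp only [mul_sum, ← sum_neg_distrib, ← sum_sub_distrib]
    exact sum_le_sum fun j _ => sum_le_sum fun i _ => hpt j i
  have hmain := sum_congr (rfl : (univ : Finset (Fin n)) = univ) fun j _ => hA j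
  rw [sum_sub_distrib, sum_add_distrib, ← mul_sum, ← mul_sum] at hmain
  rw [hL, show gradSq f x = ∑ j, a j ^ 2 from rfl]
  have h0 : 0 ≤ ∑ j, a j ^ 2 := sum_nonneg fun _ _ => sq_nonneg _
  have h5 : l / 2 * (∑ i, a i ^ 2 + ∑ i, b i ^ 2) ≤ l * ∑ i, a i ^ 2 := by nlinarith
  simp only [ha, hY] at *
  linarith

end Vale.Agent.P150.Lower
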