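import Mathlib
import Vale.Agent.P150.Lower.Grad
import Vale.Agent.P150.Ent.Decay

/-!
The mixing time of SK heat-bath dynamics is at least of order `log n`, for every `β`.
The overlap with a suitable start keeps a mean of order `n e^{-2t}` while its variance is at
most `4 n t e^{Ct}`. Used for P150.
-/

open Finset Real MeasureTheory Filter
open scoped Topology

namespace Vale.Agent.P150.Lower

open Crit Ent

variable {n : ℕ} {β : ℝ} {g : Pair n → ℝ}

theorem genOp_eq_gen (f : Conf n → ℝ) (x : Conf n) :
    genOp n β g f x = gen (skK n β g) f x := by rw [genOp_apply, generator_eq, gen]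

theorem semigroup_apply (t : ℝ) (f : Conf n → ℝ) (x : Conf n) :
    semigroup n β g t f x = ∑ y, kernel n β g t x y * f y := by
  have hf : f = ∑ y, f y • (Pi.single y (1 : ℝ) : Conf n → ℝ) := by
    funext z; simp [Finset.sum_apply, Pi.single_apply]
  conv_lhs => rw [hf]
  simp only [map_sum, map_smul, Finset.sum_apply, Pi.smul_apply, smul_eq_mul, kernel]
  exact sum_congr rfl fun y _ => mul_comm _ _

/-- Doubling of the lower bound on the autocorrelation. -/
theorem auto_lower (f : Conf n → ℝ) (hV : ip n β g f f = 1) (hD : dirichlet n β g f ≤ 1) {t : ℝ}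
    (ht : 0 ≤ t) : exp (-(2 * t)) ≤ ip n β g f (semigroup n β g t f) := by
  obtain ⟨m, hm⟩ := pow_unbounded_of_one_lt (2 * t) (one_lt_two : (1 : ℝ) < 2)
  set τ := t / 2 ^ m with hτ
  have h2m : (0 : ℝ) < 2 ^ m := by positivity
  have hτ0 : 0 ≤ τ := by positivity
  have hτ1 : τ ≤ 1 / 2 := by rw [hτ, div_le_iff₀ h2m]; linarith
  have key : ∀ k : ℕ, (exp (-(2 * τ))) ^ 2 ^ k ≤ ip n β g f (semigroup n β g (2 ^ k * τ) f) := by
    intro k
    induction k with
    | zero =>
      simp only [pow_zero, pow_one, one_mul]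
      have h := decay_lower (β := β) (g := g) f hτ0
      have h1 : τ * dirichlet n β g f ≤ τ := mul_le_of_le_one_right hτ0 hD
      have h2 : exp (-(2 * τ)) ≤ 1 - τ := by
        rw [exp_neg, inv_le_iff_one_le_mul₀ (exp_pos _)]
        refine le_trans ?_ (mul_le_mul_of_nonneg_left (add_one_le_exp (2 * τ)) (by linarith))
        nlinarith
      linarith
    | succ k ih =>
      rw [pow_succ (2 : ℕ), pow_mul, pow_succ (2 : ℝ), show (2 : ℝ) ^ k * 2 * τ = 2 ^ k * τ + 2 ^ k * τ by ring, semigroup_add,
        semigroup_symm]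
      refine (pow_le_pow_left₀ (by positivity) ih 2).trans ?_
      set u := semigroup n β g (2 ^ k * τ) f
      have hcs := sum_mul_sq_le_sq_mul_sq univ (fun x => √(mu n β g x) * f x)
        (fun x => √(mu n β g x) * u x)
      have e : ∀ a b : Conf n → ℝ, ∑ x, √(mu n β g x) * a x * (√(mu n β g x) * b x) = ip n β g a b :=
        fun a b => sum_congr rfl fun x _ => by
          rw [mul_mul_mul_comm, mul_self_sqrt (mu_pos g x).le, mul_assoc]
      simp only [pow_two] at hcs
      rw [e, e, e, hV, one_mul] at hcs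
      simpa [pow_two] using hcs
  refine le_trans (le_of_eq ?_) ((key m).trans_eq ?_)
  · rw [← exp_nat_mul]; push_cast; rw [hτ]; field_simp
  · rw [hτ, mul_div_cancel₀ _ h2m.ne']

/-- Some start keeps the mean overlap. -/
theorem exists_start {t : ℝ} (ht : 0 ≤ t) :
    ∃ x, (n : ℝ) * exp (-(2 * t)) ≤ semigroup n β g t (ov x) x := by
  obtain ⟨x, -, hx⟩ := exists_le_of_sum_le (s := univ)
    (f := fun x => mu n β g x * ((n : ℝ) * exp (-(2 * t))))
    (g := fun x => mu n β g x * semigroup n β g t (ov x) x) univ_nonempty (by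
      rw [← sum_mul, mu_sum, one_mul]
      have e : ∀ x : Conf n, ov x = ∑ i, spin (x i) • fun y : Conf n => spin (y i) := fun x => by
        funext y; simp [ov, Finset.sum_apply]
      calc (n : ℝ) * exp (-(2 * t)) = ∑ _i : Fin n, exp (-(2 * t)) := by simp
        _ ≤ ∑ i, ip n β g (fun y => spin (y i)) (semigroup n β g t fun y => spin (y i)) :=
            sum_le_sum fun i _ => auto_lower _
              (by simp [ip, mul_assoc, spin_sq, mu_sum]) (spin_test i).2 ht
        _ = _ := by
          simp only [ip]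
          rw [sum_comm]
          refine sum_congr rfl fun x _ => ?_
          conv_rhs => rw [e x]
          simp only [map_sum, map_smul, Finset.sum_apply, Pi.smul_apply, smul_eq_mul, mul_sum, mul_assoc])
  exact ⟨x, le_of_mul_le_mul_left hx (mu_pos g x)⟩

theorem hasDeriv_comp {F : ℝ → Conf n → ℝ} {F' : Conf n → ℝ} {s : ℝ} (x : Conf n)
    (h : HasDerivAt F F' s) :
    HasDerivAt (fun r => semigroup n β g r (F r) x)
      (semigroup n β g s (genOp n β g (F s) + F') x) s := by
  have h1 := (hasDerivAt_exp_smul_const (genOp n β g) s).clm_apply h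
  refine (hasDerivAt_pi.1 h1 x).congr_deriv ?_
  simp only [map_add, Pi.add_apply]
  rfl

theorem back_deriv (f : Conf n → ℝ) (t s : ℝ) :
    HasDerivAt (fun r => semigroup n β g (t - r) f)
      (-genOp n β g (semigroup n β g (t - s) f)) s :=
  ((semigroup_deriv' f (t - s)).scomp s ((hasDerivAt_id' s).const_sub t)).congr_deriv (by simp)

theorem semigroup_mono {t : ℝ} (ht : 0 ≤ t) {f f' : Conf n → ℝ} (h : ∀ x, f x ≤ f' x) (x : Conf n) :
    semigroup n β g t f x ≤ semigroup n β g t f' x := by
  have := semigroup_nonneg (β := β) (g := g) ht (f := f' - f) (fun y => by simpa using h y) x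
  simpa using this

theorem semigroup_const (t c : ℝ) (x : Conf n) : semigroup n β g t (fun _ => c) x = c := by
  have e : (fun _ : Conf n => c) = c • fun _ : Conf n => (1 : ℝ) := by funext y; simp
  rw [e, map_smul, semigroup_one]; simp

/-- The local Poincaré bound with exponential constant. -/
theorem local_var {l R : ℝ} (hl : 0 ≤ l) (hR0 : 0 ≤ R)
    (hq : ∀ v, |qform (skK n β g) v| ≤ l * ∑ i, v i ^ 2)
    (hR : ∀ i, ∑ j, skK n β g i j ^ 2 ≤ R) (hk : ∀ i j, |skK n β g i j| ≤ 1 / 20)
    (f : Conf n → ℝ) {A : ℝ} (hA : ∀ x, gradSq f x ≤ A) {t : ℝ} (ht : 0 ≤ t) (x : Conf n) :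
    semigroup n β g t (fun y => f y ^ 2) x - semigroup n β g t f x ^ 2
      ≤ 4 * A * exp ((2 * l + 504 * R) * t) * t := by
  set C := 2 * l + 504 * R with hC
  have hC0 : 0 ≤ C := by positivity
  have hA0 : 0 ≤ A := (gradSq_nonneg f x).trans (hA x)
  set F : ℝ → Conf n → ℝ := fun r => semigroup n β g (t - r) f with hF
  have hFd : ∀ s, HasDerivAt F (-genOp n β g (F s)) s := back_deriv f t
  -- the squared gradient along the interpolation
  have hGd : ∀ s, HasDerivAt (fun r => gradSq (F r))
      (fun y => -(2 * ∑ j, grad (F s) y j * grad (gen (skK n β g) (F s)) y j)) s := fun s => by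
    refine hasDerivAt_pi.2 fun y => ?_
    have hg : ∀ j, HasDerivAt (fun r => grad (F r) y j)
        (-grad (gen (skK n β g) (F s)) y j) s := fun j => by
      refine (((hasDerivAt_pi.1 (hFd s) _).sub (hasDerivAt_pi.1 (hFd s) _)).div_const 2).congr_deriv ?_
      simp only [grad, Pi.neg_apply, genOp_eq_gen]; ring
    refine (HasDerivAt.fun_sum fun j _ => (hg j).pow 2).congr_deriv ?_
    simp only [mul_sum, ← sum_neg_distrib]
    exact sum_congr rfl fun j _ => by push_cast; ring
  set η := fun r => exp (C * r) * semigroup n β g r (gradSq (F r)) x with hη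
  have hηd : ∀ s, HasDerivAt η (exp (C * s) * C * semigroup n β g s (gradSq (F s)) x
      + exp (C * s) * semigroup n β g s (genOp n β g (gradSq (F s))
        + fun y => -(2 * ∑ j, grad (F s) y j * grad (gen (skK n β g) (F s)) y j)) x) s := fun s =>
    ((((hasDerivAt_id' s).const_mul C).exp).mul (hasDeriv_comp x (hGd s))).congr_deriv (by ring)
  have hη0 : ∀ s, 0 ≤ s →
      0 ≤ exp (C * s) * C * semigroup n β g s (gradSq (F s)) x
      + exp (C * s) * semigroup n β g s (genOp n β g (gradSq (F s))
        + fun y => -(2 * ∑ j, grad (F s) y j * grad (gen (skK n β g) (F s)) y j)) x := by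
    intro s hs
    have h := semigroup_mono (β := β) (g := g) hs (f := 0)
      (f' := C • gradSq (F s) + (genOp n β g (gradSq (F s))
        + fun y => -(2 * ∑ j, grad (F s) y j * grad (gen (skK n β g) (F s)) y j))) (fun y => ?_) x
    · simp only [map_zero, map_add, map_smul, Pi.zero_apply, Pi.add_apply, Pi.smul_apply,
        smul_eq_mul] at h
      simp only [map_add, Pi.add_apply]
      have := mul_nonneg (exp_pos (C * s)).le h
      linarith
    · have := gradSq_flow (skK n β g) (fun i j => skK_symm i j) skK_self hl hq hR hk (F s) y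
      simp only [Pi.zero_apply, Pi.add_apply, Pi.smul_apply, smul_eq_mul, genOp_eq_gen]
      linarith
  have hmono := monotoneOn_of_hasDerivWithinAt_nonneg (convex_Icc 0 t)
    (fun s _ => (hηd s).continuousAt.continuousWithinAt) (fun s _ => (hηd s).hasDerivWithinAt)
    (fun s hs => hη0 s (interior_subset hs).1)
  have hFt : F t = f := by simp [hF, semigroup_zero]
  have hΦ : ∀ s ∈ Set.Icc 0 t, semigroup n β g s (gradSq (F s)) x ≤ A * exp (C * t) := by
    intro s hs
    have h1 := hmono hs ⟨ht, le_rfl⟩ hs.2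
    simp only [hη] at h1
    rw [hFt] at h1
    have h2 : semigroup n β g t (gradSq f) x ≤ A :=
      (semigroup_mono ht hA x).trans_eq (semigroup_const t A x)
    have h3 : semigroup n β g s (gradSq (F s)) x ≤ exp (C * s) * semigroup n β g s (gradSq (F s)) x :=
      le_mul_of_one_le_left (semigroup_nonneg hs.1 (gradSq_nonneg _) x)
        (one_le_exp (mul_nonneg hC0 hs.1))
    have h4 := mul_le_mul_of_nonneg_left h2 (exp_pos (C * t)).le
    linarith
  have hSd : ∀ s, HasDerivAt (fun r => fun y => F r y ^ 2)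
      (fun y => -(2 * F s y * gen (skK n β g) (F s) y)) s := fun s => by
    refine hasDerivAt_pi.2 fun y => ((hasDerivAt_pi.1 (hFd s) y).pow 2).congr_deriv ?_
    simp only [Pi.neg_apply, genOp_eq_gen]; push_cast; ring
  set ν := fun r => semigroup n β g r (fun y => F r y ^ 2) x - 4 * A * exp (C * t) * r with hν
  have hνd : ∀ s, HasDerivAt ν (semigroup n β g s (genOp n β g (fun y => F s y ^ 2)
      + fun y => -(2 * F s y * gen (skK n β g) (F s) y)) x - 4 * A * exp (C * t)) s := fun s =>
    ((hasDeriv_comp x (hSd s)).sub ((hasDerivAt_id' s).const_mul (4 * A * exp (C * t)))).congr_deriv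
      (by ring)
  have hanti := antitoneOn_of_hasDerivWithinAt_nonpos (convex_Icc 0 t)
    (fun s _ => (hνd s).continuousAt.continuousWithinAt) (fun s _ => (hνd s).hasDerivWithinAt)
    (fun s hs => ?_) ⟨le_rfl, ht⟩ ⟨ht, le_rfl⟩ ht
  · simp only [hν, hFt] at hanti
    simp only [hF, semigroup_zero, sub_zero, one_apply_eq_self, mul_zero] at hanti
    linarith
  · have hs' := interior_subset hs
    have h := semigroup_mono (β := β) (g := g) hs'.1
      (f := genOp n β g (fun y => F s y ^ 2) + fun y => -(2 * F s y * gen (skK n β g) (F s) y))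
      (f' := (4 : ℝ) • gradSq (F s)) (fun y => ?_) x
    · rw [map_smul] at h
      simp only [Pi.smul_apply, smul_eq_mul] at h
      linarith [hΦ s hs']
    · have e := gen_sq (skK n β g) (F s) y
      simp only [Pi.add_apply, Pi.smul_apply, smul_eq_mul, genOp_eq_gen, gradSq, mul_sum]
      rw [← sub_eq_add_neg, e]
      refine sum_le_sum fun i _ => ?_
      have hT := abs_lt.1 (abs_tanh_lt_one (fld (skK n β g) 0 y i))
      have : 1 - spin (y i) * tanh (fld (skK n β g) 0 y i) ≤ 2 := by
        cases y i <;> simp [spin] <;> linarith [hT.1, hT.2]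
      linarith [mul_le_mul_of_nonneg_left this (sq_nonneg (grad (F s) y i))]

/-- Large mean and small variance contradict mixing. -/
theorem not_mixed {t : ℝ} (ht : 0 ≤ t) (x : Conf n) {m : ℝ} (hm : 0 < m)
    (hmean : m ≤ semigroup n β g t (ov x) x)
    (hvar : 16 * (semigroup n β g t (fun y => ov x y ^ 2) x - semigroup n β g t (ov x) x ^ 2) ≤ m ^ 2) :
    ¬ MixedBy n β g t := by
  intro hmix
  set p := fun y => kernel n β g t x y with hp
  set M := semigroup n β g t (ov x) x with hM
  have hp0 : ∀ y, 0 ≤ p y := fun y => semigroup_nonneg ht (fun z => by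
    by_cases h : z = y <;> simp [h]) x
  have hp1 : ∑ y, p y = 1 := by
    have := semigroup_apply (β := β) (g := g) t (fun _ => 1) x
    rw [semigroup_one] at this
    simpa using this.symm
  have h1 : ∑ y, p y * ov x y = M := (semigroup_apply t (ov x) x).symm
  have hV : semigroup n β g t (fun y => ov x y ^ 2) x - M ^ 2 = ∑ y, p y * (ov x y - M) ^ 2 := by
    rw [semigroup_apply]
    have : ∀ y, p y * (ov x y - M) ^ 2
        = p y * ov x y ^ 2 - 2 * M * (p y * ov x y) + M ^ 2 * p y := fun y => by ring
    change ∑ y, p y * ov x y ^ 2 - M ^ 2 = ∑ y, p y * (ov x y - M) ^ 2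
    rw [sum_congr rfl fun y _ => this y, sum_add_distrib, sum_sub_distrib, ← mul_sum, ← mul_sum,
      hp1, h1]
    ring
  rw [hV] at hvar
  set S := (univ : Finset (Conf n)).filter fun y => ov x y ≤ 0 with hS
  have hpS : M ^ 2 * ∑ y ∈ S, p y ≤ M ^ 2 * (1 / 16) := by
    have h2 : M ^ 2 * ∑ y ∈ S, p y ≤ ∑ y, p y * (ov x y - M) ^ 2 := by
      rw [mul_sum]
      refine (sum_le_sum fun y hy => ?_).trans
        (sum_le_univ_sum_of_nonneg fun y => mul_nonneg (hp0 y) (sq_nonneg _))
      have hy' : ov x y ≤ 0 := (mem_filter.1 hy).2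
      rw [mul_comm]
      exact mul_le_mul_of_nonneg_left (by nlinarith) (hp0 y)
    have := pow_le_pow_left₀ hm.le hmean 2
    linarith
  have hpS' := le_of_mul_le_mul_left hpS (pow_pos (hm.trans_le hmean) 2)
  have hmuS : 1 / 2 ≤ ∑ y ∈ S, mu n β g y := by
    have hb : Function.Involutive (negConf (n := n)) := fun y => by funext i; simp [negConf]
    have h := Equiv.sum_comp hb.toPerm fun y => if ov x y ≤ 0 then mu n β g y else 0
    simp only [Function.Involutive.coe_toPerm, mu_neg] at h
    have hsum : ∑ y, (mu n β g y) ≤ ∑ y, ((if ov x (negConf y) ≤ 0 then mu n β g y else 0)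
        + if ov x y ≤ 0 then mu n β g y else 0) := sum_le_sum fun y _ => by
      have e : ov x (negConf y) = -ov x y := by simp [ov, negConf, spin_not]
      have := mu_pos (β := β) g y
      rw [e]; split_ifs <;> linarith
    rw [sum_add_distrib, h, mu_sum, ← sum_filter] at hsum
    linarith
  have hsplit := sum_add_sum_compl S fun y => |kernel n β g t x y - mu n β g y|
  have hS1 : ∑ y ∈ S, (mu n β g y - p y) ≤ ∑ y ∈ S, |kernel n β g t x y - mu n β g y| :=
    sum_le_sum fun y _ => by rw [abs_sub_comm]; exact le_abs_self _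
  have hS2 : ∑ y ∈ Sᶜ, (p y - mu n β g y) ≤ ∑ y ∈ Sᶜ, |kernel n β g t x y - mu n β g y| :=
    sum_le_sum fun y _ => le_abs_self _
  have c1 := sum_add_sum_compl S p
  have c2 := sum_add_sum_compl S (mu n β g)
  rw [hp1] at c1
  rw [mu_sum] at c2
  simp only [sum_sub_distrib] at hS1 hS2
  have := hmix x
  linarith

/-- The mixing time is at least of order `log n` with high probability, for every `β`. -/
theorem lower_log {β : ℝ} (hβ : 0 ≤ β) :
    ∃ c : ℝ, 0 < c ∧ ∀ ε : ℝ, 0 < ε → ∀ᶠ n : ℕ in atTop,
      ENNReal.ofReal (1 - ε) ≤ disorder n {g | ∀ t, 0 ≤ t → MixedBy n β g t → c * log n ≤ t} := by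
  set l : ℝ := 3 * β with hl
  set R : ℝ := 2 * β ^ 2 with hR
  set C : ℝ := 2 * l + 504 * R with hC
  have hC0 : 0 ≤ C := by positivity
  set a : ℝ := 1 / (20 * (β + 1)) with ha
  have ha0 : 0 < a := by positivity
  refine ⟨1 / (2 * (C + 5)), by positivity, fun ε hε => ?_⟩
  filter_upwards [Edge.edge (show (0 : ℝ) < 1 by norm_num) (show 0 < ε / 3 by positivity),
    rows_bound (show (0 : ℝ) < 1 by norm_num) (show 0 < ε / 3 by positivity),
    small_entries ha0 (show 0 < ε / 3 by positivity), eventually_ge_atTop 4096]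
    with n hedge hrows hsmall hn
  have hprob : IsProbabilityMeasure (disorder n) := by unfold disorder; infer_instance
  set Gd : Set (Pair n → ℝ) := {g | ∀ t, 0 ≤ t → MixedBy n β g t → 1 / (2 * (C + 5)) * log n ≤ t}
    with hGd
  set G₁ : Set (Pair n → ℝ) := {g | ∀ v, |Edge.tri g v| ≤ (2 + 1) * √n * ∑ i, v i ^ 2} with hG1
  set G₂ : Set (Pair n → ℝ) := {g | ∀ i, ∑ j, entry g i j ^ 2 ≤ (1 + 1) * n} with hG2
  set G₃ : Set (Pair n → ℝ) := {g | ∀ p : Pair n, |g p| ≤ a * √n} with hG3
  have hn0 : (0 : ℝ) < n := by exact_mod_cast (show 0 < n by omega)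
  have hsn : 0 < √(n : ℝ) := sqrt_pos.2 hn0
  have hsub : G₁ ∩ G₂ ∩ G₃ ⊆ Gd := by
    rintro g ⟨⟨g1, g2⟩, g3⟩ t ht hmix
    have hq : ∀ v, |qform (skK n β g) v| ≤ l * ∑ i, v i ^ 2 := fun v => by
      rw [qform_skK, abs_mul, abs_of_nonneg (by positivity)]
      refine (mul_le_mul_of_nonneg_left (g1 v) (by positivity)).trans_eq ?_
      rw [hl]; field_simp; ring
    have hrow : ∀ i, ∑ j, skK n β g i j ^ 2 ≤ R := fun i => by
      simp only [skK, mul_pow, ← mul_sum, div_pow, sq_sqrt hn0.le]
      refine (mul_le_mul_of_nonneg_left (g2 i) (by positivity)).trans_eq ?_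
      rw [hR]; field_simp; ring
    have hent : ∀ i j, |skK n β g i j| ≤ 1 / 20 := fun i j => by
      rw [skK, abs_mul, abs_of_nonneg (by positivity)]
      refine (mul_le_mul_of_nonneg_left (abs_entry_le (by positivity) g3 i j) (by positivity)).trans ?_
      have e : β / √n * (a * √n) = β / (20 * (β + 1)) := by rw [ha]; field_simp
      rw [e, div_le_iff₀ (by positivity)]
      linarith
    by_contra hlt
    rw [not_le, div_mul_eq_mul_div, lt_div_iff₀ (by positivity), one_mul] at hlt
    obtain ⟨x, hx⟩ := exists_start (β := β) (g := g) ht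
    refine not_mixed ht x (by positivity) hx ?_ hmix
    have hgrad : ∀ y, gradSq (ov x) y ≤ n := fun y => by
      refine (sum_le_sum (g := fun _ => (1 : ℝ)) fun j _ => ?_).trans_eq (by simp)
      have : grad (ov x) y j = spin (x j) := by
        simp only [grad, ov, ← sum_sub_distrib]
        rw [sum_eq_single j (fun k _ hk => by simp [hk]) (by simp)]
        simp [spin]
      rw [this, pow_two, spin_sq]
    have hv := local_var (l := l) (R := R) (by positivity) (by positivity) hq hrow hent (ov x) hgrad ht x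
    rw [← hC] at hv
    refine (mul_le_mul_of_nonneg_left hv (by norm_num : (0 : ℝ) ≤ 16)).trans ?_
    have hb : exp ((C + 5) * t) ≤ √(n : ℝ) := by
      rw [sqrt_eq_rpow, rpow_def_of_pos hn0]
      exact exp_le_exp.2 (by linarith)
    have h64 : 64 * √(n : ℝ) ≤ n := by
      have : 64 ≤ √(n : ℝ) := le_sqrt_of_sq_le (by
        have : (4096 : ℝ) ≤ n := by exact_mod_cast hn
        linarith)
      nlinarith [mul_self_sqrt hn0.le]
    have hkey : 64 * (t * exp ((C + 4) * t)) ≤ n := by
      refine le_trans (mul_le_mul_of_nonneg_left ?_ (by norm_num))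
        ((mul_le_mul_of_nonneg_left hb (by norm_num)).trans h64)
      rw [show (C + 5) * t = t + (C + 4) * t by ring, exp_add]
      exact mul_le_mul_of_nonneg_right (by linarith [add_one_le_exp t]) (exp_pos _).le
    have e1 : exp ((C + 4) * t) * exp (-(2 * t)) ^ 2 = exp (C * t) := by
      rw [← exp_nat_mul, ← exp_add]; congr 1; push_cast; ring
    calc 16 * (4 * (n : ℝ) * exp (C * t) * t)
        = (n : ℝ) * exp (-(2 * t)) ^ 2 * (64 * (t * exp ((C + 4) * t))) := by
          linear_combination (-(64 * (n : ℝ) * t)) * e1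
      _ ≤ (n : ℝ) * exp (-(2 * t)) ^ 2 * n := mul_le_mul_of_nonneg_left hkey (by positivity)
      _ = ((n : ℝ) * exp (-(2 * t))) ^ 2 := by ring
  have h1 : (disorder n).real G₁ᶜ ≤ ε / 3 := hedge
  have h2 : (disorder n).real G₂ᶜ ≤ ε / 3 := by
    have hm : MeasurableSet G₂ := by
      rw [hG2, Set.ofPred_forall]
      refine MeasurableSet.iInter fun i => measurableSet_le ?_ measurable_const
      simp only [sum_entry_sq]
      fun_prop
    rw [probReal_compl_eq_one_sub hm]
    have h := hrows
    rw [← ofReal_measureReal (μ := disorder n), ENNReal.ofReal_le_ofReal_iff measureReal_nonneg] at h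
    linarith
  have h3 : (disorder n).real G₃ᶜ ≤ ε / 3 := hsmall
  have hcomp : (disorder n).real Gdᶜ ≤ ε := by
    refine (measureReal_mono (Set.compl_subset_compl.2 hsub) (measure_ne_top _ _)).trans ?_
    rw [Set.compl_inter, Set.compl_inter]
    refine (measureReal_union_le _ _).trans ?_
    linarith [measureReal_union_le (μ := disorder n) G₁ᶜ G₂ᶜ]
  have hone : 1 ≤ (disorder n).real Gd + (disorder n).real Gdᶜ := by
    have := measureReal_union_le (μ := disorder n) Gd Gdᶜ
    rwa [Set.union_compl_self, probReal_univ] at this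
  rw [← ofReal_measureReal (measure_ne_top _ _)]
  exact ENNReal.ofReal_le_ofReal (by linarith)

end Vale.Agent.P150.Lower
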